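import Vale.Agent.P030.Defs
import Vale.Agent.P031.SWal

namespace Vale.Agent.P030

open Polynomial Finset

theorem PS_psi {δ : ℝ} (hδ : 0 < δ) (hδ1 : δ ≤ 1) : ∀ᶠ x : ℝ in Filter.atTop,
    (1 - 2 * δ) * x ≤ Chebyshev.psi x ∧ Chebyshev.psi x ≤ (1 + 2 * δ) * x := by
  obtain ⟨W, hW⟩ := P031.exists_cut hδ hδ1
  have ht : Filter.Tendsto (fun x : ℝ => x / (1 + δ)) Filter.atTop Filter.atTop :=
    Filter.tendsto_id.atTop_div_const (by linarith)
  filter_upwards [P031.pnt_smooth hW hδ, ht.eventually (P031.pnt_smooth hW hδ),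
    Filter.eventually_gt_atTop 0] with x h1 h2 hx
  have hX : 0 < x / (1 + δ) := by positivity
  have hv : ∀ n : ℕ, 0 ≤ ArithmeticFunction.vonMangoldt n := fun n => ArithmeticFunction.vonMangoldt_nonneg
  have e : Chebyshev.psi x = ∑ n ∈ Icc 1 ⌊x⌋₊, ArithmeticFunction.vonMangoldt n := by
    rw [Chebyshev.psi]; rfl
  constructor
  · have h3 : ∑ n ∈ Icc 1 ⌊3 * (x / (1 + δ))⌋₊, ArithmeticFunction.vonMangoldt n * W (n / (x / (1 + δ)))
        ≤ Chebyshev.psi x := by
      rw [e]
      calc _ = ∑ n ∈ (Icc 1 ⌊3 * (x / (1 + δ))⌋₊).filter (fun n => n ≤ ⌊x⌋₊),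
            ArithmeticFunction.vonMangoldt n * W (n / (x / (1 + δ))) := by
            refine (sum_filter_of_ne fun n _ hn => ?_).symm
            by_contra hc
            refine hn ?_
            rw [hW.zero _ ?_, mul_zero]
            rw [le_div_iff₀ hX, mul_div_cancel₀ _ (by linarith)]
            exact (Nat.lt_of_floor_lt (by omega)).le
        _ ≤ ∑ n ∈ (Icc 1 ⌊3 * (x / (1 + δ))⌋₊).filter (fun n => n ≤ ⌊x⌋₊),
            ArithmeticFunction.vonMangoldt n :=
            sum_le_sum fun n _ => mul_le_of_le_one_right (hv n) (hW.le _)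
        _ ≤ _ := sum_le_sum_of_subset_of_nonneg (fun n hn => by
            simp only [mem_filter, mem_Icc] at hn ⊢
            omega) fun n _ _ => hv n
    refine le_trans ?_ (h2.1.trans h3)
    rw [← mul_div_assoc, le_div_iff₀ (by linarith)]
    nlinarith [mul_pos hx hδ, mul_pos (mul_pos hx hδ) hδ]
  · refine le_trans ?_ (h1.2.trans (le_of_eq (by ring)))
    rw [e]
    calc _ = ∑ n ∈ Icc 1 ⌊x⌋₊, ArithmeticFunction.vonMangoldt n * W (n / x) :=
          sum_congr rfl fun n hn => by
            rw [hW.one _ ((div_le_one hx).2 ((Nat.le_floor_iff hx.le).1 (mem_Icc.1 hn).2)), mul_one]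
      _ ≤ _ := sum_le_sum_of_subset_of_nonneg
          (Icc_subset_Icc_right (Nat.floor_mono (by linarith))) fun n _ _ =>
            mul_nonneg (hv n) (hW.nonneg _)

theorem PS_psi_asymp : Filter.Tendsto (fun x : ℝ => Chebyshev.psi x / x) Filter.atTop (nhds 1) := by
  rw [Metric.tendsto_nhds]
  intro ε hε
  have hδ : 0 < min (ε / 3) 1 := lt_min (by linarith) one_pos
  have h3 : min (ε / 3) 1 ≤ ε / 3 := min_le_left _ _
  filter_upwards [PS_psi hδ (min_le_right _ _), Filter.eventually_gt_atTop 0] with x h hx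
  rw [Real.dist_eq, abs_lt]
  have h1 := (le_div_iff₀ hx).2 h.1
  have h2 := (div_le_iff₀ hx).2 h.2
  constructor <;> linarith

theorem theta_asymp : Filter.Tendsto (fun x : ℝ => Chebyshev.theta x / x) Filter.atTop (nhds 1) := by
  obtain ⟨C, hC⟩ := Chebyshev.psi_sub_theta_le_mul_sqrt
  have h1 : Filter.Tendsto (fun x : ℝ => C * (√x)⁻¹) Filter.atTop (nhds (C * 0)) :=
    (Real.tendsto_sqrt_atTop.inv_tendsto_atTop).const_mul C
  have h2 := PS_psi_asymp.sub h1
  rw [mul_zero, sub_zero] at h2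
  refine tendsto_of_tendsto_of_tendsto_of_le_of_le' h2 PS_psi_asymp ?_ ?_
  · filter_upwards [Filter.eventually_gt_atTop 0] with x hx
    have hs : 0 < √x := Real.sqrt_pos.2 hx
    have e : C * (√x)⁻¹ = C * √x / x := by
      rw [mul_div_assoc, Real.sqrt_div_self']
      simp
    rw [e, ← sub_div]
    exact div_le_div_of_nonneg_right (by linarith [hC x]) hx.le
  · filter_upwards [Filter.eventually_gt_atTop 0] with x hx
    exact div_le_div_of_nonneg_right (Chebyshev.theta_le_psi x) hx.le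

theorem PS_theta_nat (M K : ℕ) (h : M ≤ K) :
    Chebyshev.theta M = ∑ q ∈ (range (K + 1)).filter Nat.Prime, if q ≤ M then Real.log q else 0 := by
  rw [← sum_filter, Chebyshev.theta, Nat.floor_natCast]
  refine sum_congr ?_ fun _ _ => rfl
  ext q
  simp only [mem_filter, mem_Ioc, mem_range]
  constructor
  · rintro ⟨⟨_, h2⟩, h3⟩
    exact ⟨⟨by omega, h3⟩, h2⟩
  · rintro ⟨⟨_, h2⟩, h3⟩
    exact ⟨⟨h2.pos, h3⟩, h2⟩

theorem PS_hinge_nat (K M : ℕ) (h : M ≤ K + 1) :
    ∑ q ∈ (range (K + 1)).filter Nat.Prime, max ((M : ℝ) - q) 0 * Real.log q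
      = ∑ m ∈ range M, Chebyshev.theta m := by
  induction M with
  | zero =>
    simp only [range_zero, sum_empty]
    refine sum_eq_zero fun q _ => ?_
    rw [max_eq_right (by simp), zero_mul]
  | succ M ih =>
    rw [sum_range_succ, ← ih (by omega), PS_theta_nat M K (by omega), ← sum_add_distrib]
    refine sum_congr rfl fun q _ => ?_
    split_ifs with hq
    · have : (q : ℝ) ≤ M := by exact_mod_cast hq
      push_cast
      rw [max_eq_left (by linarith), max_eq_left (by linarith)]
      ring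
    · have : (M : ℝ) + 1 ≤ q := by exact_mod_cast (not_le.1 hq)
      push_cast
      rw [max_eq_right (by linarith), max_eq_right (by linarith)]
      ring

theorem PS_sum_asymp : Filter.Tendsto (fun M : ℕ => (∑ m ∈ range M, Chebyshev.theta m) / (M : ℝ) ^ 2)
    Filter.atTop (nhds (1 / 2)) := by
  have h0 : (fun m : ℕ => Chebyshev.theta m - m) =o[Filter.atTop] fun m : ℕ => (m : ℝ) := by
    rw [Asymptotics.isLittleO_iff_tendsto' (by
      filter_upwards [Filter.eventually_ge_atTop 1] with m hm h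
      exact absurd h (by positivity))]
    have := (theta_asymp.comp tendsto_natCast_atTop_atTop).sub_const 1
    rw [sub_self] at this
    refine this.congr' ?_
    filter_upwards [Filter.eventually_ge_atTop 1] with m hm
    have : (m : ℝ) ≠ 0 := by positivity
    simp only [Function.comp]
    field_simp
  have hs : ∀ M : ℕ, ∑ m ∈ range M, (m : ℝ) = M * (M - 1) / 2 := fun M => by
    induction M with
    | zero => simp
    | succ M ih => rw [sum_range_succ, ih]; push_cast; ring
  have hle : ∀ M : ℕ, ∑ m ∈ range M, (m : ℝ) ≤ (M : ℝ) ^ 2 := fun M => by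
    rw [hs]; nlinarith [Nat.cast_nonneg (α := ℝ) M]
  have ht : Filter.Tendsto (fun M : ℕ => ∑ m ∈ range M, (m : ℝ)) Filter.atTop Filter.atTop := by
    refine Filter.tendsto_atTop_mono' _ ?_ (tendsto_natCast_atTop_atTop (R := ℝ))
    filter_upwards [Filter.eventually_ge_atTop 3] with M hM
    have : (3 : ℝ) ≤ M := by exact_mod_cast hM
    rw [hs]
    nlinarith
  have h1 := h0.sum_range (fun m => Nat.cast_nonneg m) ht
  have h2 : (fun M : ℕ => ∑ m ∈ range M, (m : ℝ)) =O[Filter.atTop] fun M : ℕ => (M : ℝ) ^ 2 :=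
    Asymptotics.IsBigO.of_bound 1 (Filter.Eventually.of_forall fun M => by
      rw [one_mul, Real.norm_of_nonneg (sum_nonneg fun m _ => Nat.cast_nonneg m),
        Real.norm_of_nonneg (by positivity)]
      exact hle M)
  have h3 := (h1.trans_isBigO h2).tendsto_div_nhds_zero
  have h4 : Filter.Tendsto (fun M : ℕ => 1 / 2 - 1 / 2 * ((M : ℝ))⁻¹) Filter.atTop
      (nhds (1 / 2 - 1 / 2 * 0)) :=
    ((tendsto_natCast_atTop_atTop (R := ℝ)).inv_tendsto_atTop.const_mul _).const_sub _
  have h5 := h3.add h4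
  simp only [mul_zero, sub_zero, zero_add] at h5
  refine h5.congr' ?_
  filter_upwards [Filter.eventually_ge_atTop 1] with M hM
  have : (M : ℝ) ≠ 0 := by positivity
  rw [sum_sub_distrib, hs]
  field_simp
  ring

theorem PS_aux {c : ℝ} (M : ℕ → ℕ) (hM : Filter.Tendsto M Filter.atTop Filter.atTop)
    (h : Filter.Tendsto (fun N : ℕ => (M N : ℝ) / N) Filter.atTop (nhds c)) :
    Filter.Tendsto (fun N : ℕ => (∑ m ∈ range (M N), Chebyshev.theta m) / (N : ℝ) ^ 2)
      Filter.atTop (nhds (c ^ 2 / 2)) := by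
  have h1 := (PS_sum_asymp.comp hM).mul (h.pow 2)
  rw [show 1 / 2 * c ^ 2 = c ^ 2 / 2 by ring] at h1
  refine h1.congr' ?_
  filter_upwards [hM.eventually_ge_atTop 1] with N hN
  have : (M N : ℝ) ≠ 0 := by positivity
  simp only [Function.comp]
  field_simp

theorem hinge_asymp (c : ℝ) (hc : 0 < c) (hc' : c ≤ 49) : Filter.Tendsto (fun N : ℕ =>
    (∑ q ∈ (range (49 * N + 1)).filter Nat.Prime, max (c * N - q) 0 * Real.log q) / (N : ℝ) ^ 2)
    Filter.atTop (nhds (c ^ 2 / 2)) := by
  have hN := tendsto_natCast_atTop_atTop (R := ℝ)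
  have hM : Filter.Tendsto (fun N : ℕ => ⌊c * N⌋₊) Filter.atTop Filter.atTop :=
    tendsto_nat_floor_atTop.comp (hN.const_mul_atTop hc)
  have h1 : Filter.Tendsto (fun N : ℕ => (⌊c * N⌋₊ : ℝ) / N) Filter.atTop (nhds c) :=
    (tendsto_nat_floor_mul_div_atTop hc.le).comp hN
  have h2 : Filter.Tendsto (fun N : ℕ => ((⌊c * N⌋₊ + 1 : ℕ) : ℝ) / N) Filter.atTop (nhds c) := by
    have := h1.add hN.inv_tendsto_atTop
    rw [add_zero] at this
    refine this.congr fun N => ?_
    push_cast
    simp only [Pi.inv_apply]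
    ring
  refine tendsto_of_tendsto_of_tendsto_of_le_of_le (PS_aux _ hM h1)
    (PS_aux _ ((Filter.tendsto_add_atTop_nat 1).comp hM) h2) (fun N => ?_) fun N => ?_
  all_goals
    have h0 : (0 : ℝ) ≤ c * N := by positivity
    have hK : ⌊c * N⌋₊ ≤ 49 * N := Nat.floor_le_of_le (by
      push_cast
      exact mul_le_mul_of_nonneg_right hc' (Nat.cast_nonneg N))
    refine div_le_div_of_nonneg_right ?_ (by positivity)
  · rw [← PS_hinge_nat (49 * N) _ (by omega)]
    exact sum_le_sum fun q _ => mul_le_mul_of_nonneg_right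
      (max_le_max_right _ (by linarith [Nat.floor_le h0])) (Real.log_natCast_nonneg q)
  · simp only [Function.comp]
    rw [← PS_hinge_nat (49 * N) _ (by omega)]
    refine sum_le_sum fun q _ => mul_le_mul_of_nonneg_right
      (max_le_max_right _ ?_) (Real.log_natCast_nonneg q)
    push_cast
    linarith [Nat.lt_floor_add_one (c * N)]

theorem prime_sum {ε : ℝ} (hε : 0 < ε) : ∀ᶠ N : ℕ in Filter.atTop,
    ∑ q ∈ (range (49 * N + 1)).filter Nat.Prime, (Vf N q + 5) * Real.log q
      ≤ (2412.5 + ε) * (N : ℝ) ^ 2 := by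
  have hN := tendsto_natCast_atTop_atTop (R := ℝ)
  have h5 : Filter.Tendsto (fun N : ℕ => 5 * Chebyshev.theta ((49 * N : ℕ) : ℝ) / (N : ℝ) ^ 2)
      Filter.atTop (nhds 0) := by
    have h1 : Filter.Tendsto (fun N : ℕ => 5 * Real.log 4 * 49 * ((N : ℝ))⁻¹) Filter.atTop
        (nhds (5 * Real.log 4 * 49 * 0)) := hN.inv_tendsto_atTop.const_mul _
    rw [mul_zero] at h1
    refine squeeze_zero' (Filter.Eventually.of_forall fun N => by
      have := Chebyshev.theta_nonneg ((49 * N : ℕ) : ℝ)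
      positivity) ?_ h1
    filter_upwards [Filter.eventually_ge_atTop 1] with N hN1
    have h0 : (0 : ℝ) < N := by positivity
    have := Chebyshev.theta_le_log4_mul_x (x := ((49 * N : ℕ) : ℝ)) (by positivity)
    rw [div_le_iff₀ (by positivity)]
    calc _ ≤ 5 * (Real.log 4 * ((49 * N : ℕ) : ℝ)) := by linarith
      _ = _ := by push_cast; field_simp
  have h := (((((((hinge_asymp 49 (by norm_num) le_rfl).add
    (hinge_asymp 44 (by norm_num) (by norm_num))).add
    (hinge_asymp 43 (by norm_num) (by norm_num))).add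
    (hinge_asymp 30 (by norm_num) (by norm_num))).sub
    ((hinge_asymp (51 / 2) (by norm_num) (by norm_num)).const_mul 2)).sub
    ((hinge_asymp (49 / 2) (by norm_num) (by norm_num)).const_mul 2)).add
    ((hinge_asymp (43 / 2) (by norm_num) (by norm_num)).const_mul 2)).sub
    ((hinge_asymp (37 / 2) (by norm_num) (by norm_num)).const_mul 2)
  have h' := h.add h5
  filter_upwards [h'.eventually (eventually_le_nhds (b := 2412.5 + ε) (by linarith)),
    Filter.eventually_ge_atTop 1] with N h1 hN1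
  have h0 : (0 : ℝ) < (N : ℝ) ^ 2 := by positivity
  rw [← div_le_iff₀ h0]
  refine le_trans (le_of_eq ?_) h1
  have e : Chebyshev.theta ((49 * N : ℕ) : ℝ)
      = ∑ q ∈ (range (49 * N + 1)).filter Nat.Prime, Real.log q := by
    rw [PS_theta_nat _ (49 * N) le_rfl]
    refine sum_congr rfl fun q hq => if_pos ?_
    have := mem_range.1 (mem_filter.1 hq).1
    omega
  rw [e]
  simp only [← mul_div_assoc, ← add_div, ← sub_div, mul_sum, ← sum_add_distrib, ← sum_sub_distrib]
  congr 1
  refine sum_congr rfl fun q _ => ?_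
  rw [Vf]
  ring

end Vale.Agent.P030
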