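import Vale.Agent.P030.OddA
import Vale.Agent.P030.OddB
import Vale.Agent.P030.TwoB
import Vale.Agent.P030.PS

namespace Vale.Agent.P030

open Polynomial Finset

theorem arith_max (a b : ℕ) : max ((a : ℝ) - b) 0 = ((a - b : ℕ) : ℝ) := by
  rcases le_total b a with h | h
  · rw [Nat.cast_sub h, max_eq_left (sub_nonneg.2 (Nat.cast_le.2 h))]
  · rw [Nat.sub_eq_zero_of_le h, max_eq_right (sub_nonpos.2 (Nat.cast_le.2 h)), Nat.cast_zero]

theorem arith_Vf_int (N p : ℕ) : Vf N p = (49 * N - p : ℕ) + (44 * N - p : ℕ)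
    + (43 * N - p : ℕ) + (30 * N - p : ℕ) - (51 * N - 2 * p : ℕ) - (49 * N - 2 * p : ℕ)
    + (43 * N - 2 * p : ℕ) - (37 * N - 2 * p : ℕ) := by
  have h : ∀ c : ℝ, 2 * max (c / 2 * N - p) 0 = max (c * N - 2 * p) 0 := by
    intro c
    rw [mul_max_of_nonneg _ _ (by norm_num : (0 : ℝ) ≤ 2)]
    congr 1 <;> ring
  unfold Vf
  rw [h, h, h, h]
  simp only [← arith_max]
  push_cast
  ring

theorem odd_Vf {p : ℕ} [Fact p.Prime] (hp : p ≠ 2) {G : ℚ} (hG : pn p G ≤ 1) {N : ℕ} (hN : 1 ≤ N)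
    (h : 49 * N < p ^ 2) : pn p (Delta G N) ≤ (p : ℝ) ^ (Vf N p + 5) := by
  have hp1 : (1 : ℝ) ≤ p := by exact_mod_cast (Fact.out : p.Prime).one_le
  have key : ∀ e : ℕ, pn p (Delta G N) ≤ (p : ℝ) ^ e →
      e + (51 * N - 2 * p) + (49 * N - 2 * p) + (37 * N - 2 * p) ≤ (49 * N - p) + (44 * N - p)
        + (43 * N - p) + (30 * N - p) + (43 * N - 2 * p) + 5 →
      pn p (Delta G N) ≤ (p : ℝ) ^ (Vf N p + 5) := by
    intro e h1 h2
    refine h1.trans ?_
    rw [← Real.rpow_natCast]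
    refine Real.rpow_le_rpow_of_exponent_le hp1 ?_
    rw [arith_Vf_int]
    have h3 := (Nat.cast_le (α := ℝ)).2 h2
    simp only [Nat.cast_add, Nat.cast_ofNat] at h3
    linarith
  rcases le_total (2 * p) (37 * N) with h1 | h1
  · exact key _ (odd_b0 hp hG h) (by omega)
  rcases le_or_gt (2 * p) (51 * N) with h2 | h2
  · refine key _ (odd_b1 hG hN h1) ?_
    rw [min_eq_left (show p ≤ 44 * N by omega), max_eq_right (show 6 * N ≤ 49 * N + 1 - p by omega),
      min_eq_left (show 14 * N + 1 ≤ 44 * N - p by omega)]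
    omega
  · refine key _ (odd_b2 hG hN (by omega)) ?_
    rw [min_eq_left (show 49 * N + 1 - p ≤ p by omega)]
    omega

theorem Vf_nonneg {N y : ℝ} (hN : 0 ≤ N) : 0 ≤ Vf N y := by
  unfold Vf
  have a1 := le_max_left (49 * N - y) 0
  have a2 := le_max_left (44 * N - y) 0
  have a3 := le_max_left (43 * N - y) 0
  have a4 := le_max_left (30 * N - y) 0
  have a5 := le_max_left (43 / 2 * N - y) 0
  have b1 := le_max_right (49 * N - y) 0
  have b2 := le_max_right (44 * N - y) 0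
  have b3 := le_max_right (43 * N - y) 0
  have b4 := le_max_right (30 * N - y) 0
  have b5 := le_max_right (43 / 2 * N - y) 0
  rcases max_cases (51 / 2 * N - y) 0 with h1 | h1 <;>
    rcases max_cases (49 / 2 * N - y) 0 with h2 | h2 <;>
    rcases max_cases (37 / 2 * N - y) 0 with h3 | h3 <;> linarith [h1.1, h1.2, h2.1, h2.2, h3.1, h3.2]

theorem arith_card (N d : ℕ) (hd : 0 < d) :
    (((range (49 * N + 1)).filter Nat.Prime).filter fun q => q ^ 2 ≤ 49 * N ∨ q ∣ d).card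
      ≤ Nat.sqrt (49 * N) + 1 + (d + 1) := by
  refine le_trans (card_le_card (t := range (Nat.sqrt (49 * N) + 1) ∪ range (d + 1)) fun q hq => ?_)
    ((card_union_le _ _).trans (by simp))
  rw [mem_union, mem_range, mem_range]
  rcases (mem_filter.1 hq).2 with h | h
  · exact Or.inl (Nat.lt_succ_of_le (Nat.le_sqrt'.2 h))
  · exact Or.inr (Nat.lt_succ_of_le (Nat.le_of_dvd hd h))

theorem arith_small (c d : ℕ) (hd : 0 < d) : ∀ᶠ N : ℕ in Filter.atTop,
    (c * N : ℕ) * Real.log ((N : ℝ) + 1) ≤ 0.03 * (N : ℝ) ^ 2 ∧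
    (Nat.sqrt (49 * N) + 1 + (d + 1) : ℕ) * ((36 * N : ℕ) * Real.log ((49 * (N : ℝ)) ^ 2 * d))
      ≤ 0.03 * (N : ℝ) ^ 2 := by
  have ht : Filter.Tendsto (fun N : ℕ => √(√(N : ℝ))) Filter.atTop Filter.atTop :=
    Real.tendsto_sqrt_atTop.comp (Real.tendsto_sqrt_atTop.comp tendsto_natCast_atTop_atTop)
  filter_upwards [ht.eventually_ge_atTop c, ht.eventually_ge_atTop d,
    ht.eventually_ge_atTop 1000000] with N h1 h2 h3
  set t := √(√(N : ℝ)) with htd
  have ht0 : 0 < t := by linarith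
  have hN : (N : ℝ) = t ^ 4 := by
    rw [show t ^ 4 = (t ^ 2) ^ 2 by ring, htd, Real.sq_sqrt (Real.sqrt_nonneg _),
      Real.sq_sqrt (Nat.cast_nonneg _)]
  have hlog : Real.log t ≤ t := (Real.log_le_sub_one_of_pos ht0).trans (by linarith)
  have hd1 : (1 : ℝ) ≤ d := by exact_mod_cast hd
  have ht2 : 1000000 * t ≤ t ^ 2 := by nlinarith
  have ht4 : 1 ≤ t ^ 4 := one_le_pow₀ (by linarith)
  have hl1 : Real.log ((N : ℝ) + 1) ≤ 5 * t := by
    have : (N : ℝ) + 1 ≤ t ^ 5 := by rw [hN]; nlinarith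
    have h4 := Real.log_le_log (by positivity) this
    rw [Real.log_pow] at h4
    push_cast at h4
    linarith
  have hl2 : Real.log ((49 * (N : ℝ)) ^ 2 * d) ≤ 10 * t := by
    have h8 : 0 < t ^ 8 := by positivity
    have : (49 * (N : ℝ)) ^ 2 * d ≤ t ^ 10 := by
      rw [hN]
      calc (49 * t ^ 4) ^ 2 * d = t ^ 8 * (2401 * d) := by ring
        _ ≤ t ^ 8 * t ^ 2 := mul_le_mul_of_nonneg_left (by linarith) h8.le
        _ = t ^ 10 := by ring
    have h4 := Real.log_le_log (by rw [hN]; positivity) this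
    rw [Real.log_pow] at h4
    push_cast at h4
    linarith
  have hs : (Nat.sqrt (49 * N) : ℝ) ≤ 7 * t ^ 2 := by
    have h5 : ((Nat.sqrt (49 * N) : ℝ)) ^ 2 ≤ (7 * t ^ 2) ^ 2 := by
      have h6 : ((Nat.sqrt (49 * N) ^ 2 : ℕ) : ℝ) ≤ ((49 * N : ℕ) : ℝ) :=
        Nat.cast_le.2 (Nat.sqrt_le' _)
      push_cast at h6
      rw [hN] at h6
      linarith [show (7 * t ^ 2) ^ 2 = 49 * t ^ 4 by ring]
    exact (pow_le_pow_iff_left₀ (by positivity) (by positivity) two_ne_zero).1 h5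
  have hN0 : (0 : ℝ) ≤ N := Nat.cast_nonneg _
  push_cast
  constructor
  · calc (c : ℝ) * N * Real.log ((N : ℝ) + 1) ≤ t * N * (5 * t) :=
          mul_le_mul (mul_le_mul_of_nonneg_right h1 hN0) hl1 (Real.log_nonneg (by linarith))
            (by positivity)
      _ = N * (5 * t ^ 2) := by ring
      _ ≤ N * (0.03 * N) := by
          refine mul_le_mul_of_nonneg_left ?_ hN0
          rw [hN]; nlinarith
      _ = 0.03 * (N : ℝ) ^ 2 := by ring
  · calc ((Nat.sqrt (49 * N) : ℝ) + 1 + (d + 1)) * (36 * N * Real.log ((49 * (N : ℝ)) ^ 2 * d))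
        ≤ (10 * t ^ 2) * (36 * N * (10 * t)) := by
          refine mul_le_mul (by linarith) (mul_le_mul_of_nonneg_left hl2 (by positivity))
            (mul_nonneg (by positivity) (Real.log_nonneg ?_)) (by positivity)
          rw [hN]; nlinarith
      _ = N * (3600 * t ^ 3) := by ring
      _ ≤ N * (0.03 * N) := by
          refine mul_le_mul_of_nonneg_left ?_ hN0
          rw [hN]
          have : 0 < t ^ 3 := by positivity
          nlinarith
      _ = 0.03 * (N : ℝ) ^ 2 := by ring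

theorem arith (G : ℚ) : ∀ᶠ N : ℕ in Filter.atTop, Delta G N ≠ 0 →
    Real.exp (-2504.2 * (N : ℝ) ^ 2) ≤ |((Delta G N : ℚ) : ℝ)| := by
  obtain ⟨c, hc⟩ := two_bound G
  filter_upwards [prime_sum (ε := 0.03) (by norm_num), arith_small c G.den G.den_pos,
    Filter.eventually_ge_atTop G.den, Filter.eventually_ge_atTop 1] with N hP hS hd hN hD
  have hN1 : (1 : ℝ) ≤ N := by exact_mod_cast hN
  have hd1 : (1 : ℝ) ≤ G.den := by exact_mod_cast G.den_pos
  set T2 : ℝ := (2 : ℝ) ^ ((1057 / 8 : ℝ) * (N : ℝ) ^ 2) * ((N : ℝ) + 1) ^ (c * N) with hT2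
  set Cr : ℝ := ((49 * (N : ℝ)) ^ 2 * G.den) ^ (36 * N) with hCr
  have hb : (1 : ℝ) ≤ (49 * (N : ℝ)) ^ 2 * G.den := by nlinarith
  have hT1 : 1 ≤ T2 := one_le_mul_of_one_le_of_one_le
    (Real.one_le_rpow (by norm_num) (by positivity)) (one_le_pow₀ (by linarith))
  have hC1 : 1 ≤ Cr := one_le_pow₀ hb
  set S := (range (49 * N + 1)).filter Nat.Prime with hSd
  have hV : ∀ q : ℕ, q.Prime → (1 : ℝ) ≤ (q : ℝ) ^ (Vf N q + 5) := fun q hq =>
    Real.one_le_rpow (by exact_mod_cast hq.one_le) (by linarith [Vf_nonneg (y := q) (N := N) (by linarith)])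
  have key := prod_formula hD S (fun q => (if q = 2 then T2 else 1) *
    (if q ^ 2 ≤ 49 * N ∨ q ∣ G.den then Cr else 1) * (q : ℝ) ^ (Vf N q + 5))
    (fun q hq => (mem_filter.1 hq).2) (fun q hq _ => ?_) (fun q hq hqS => ?_)
  · rw [prod_mul_distrib, prod_mul_distrib, prod_ite_eq', if_pos (by
      rw [hSd, mem_filter, mem_range]; exact ⟨by omega, Nat.prime_two⟩), prod_ite, prod_const_one,
      mul_one, prod_const] at key
    have h1 : ∏ q ∈ S, (q : ℝ) ^ (Vf N q + 5) = Real.exp (∑ q ∈ S, (Vf N q + 5) * Real.log q) := by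
      rw [Real.exp_sum]
      refine prod_congr rfl fun q hq => ?_
      rw [Real.rpow_def_of_pos (by exact_mod_cast (mem_filter.1 hq).2.pos), mul_comm]
    have h2 : T2 = Real.exp (1057 / 8 * (N : ℝ) ^ 2 * Real.log 2
        + (c * N : ℕ) * Real.log ((N : ℝ) + 1)) := by
      rw [Real.exp_add, hT2, Real.rpow_def_of_pos two_pos, Real.exp_nat_mul,
        Real.exp_log (by linarith), mul_comm (Real.log 2)]
    have h3 : Cr ^ (S.filter fun q => q ^ 2 ≤ 49 * N ∨ q ∣ G.den).card ≤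
        Real.exp ((Nat.sqrt (49 * N) + 1 + (G.den + 1) : ℕ) *
          ((36 * N : ℕ) * Real.log ((49 * (N : ℝ)) ^ 2 * G.den))) := by
      rw [Real.exp_nat_mul, Real.exp_nat_mul, Real.exp_log (by linarith)]
      exact pow_le_pow_right₀ hC1 (arith_card N G.den G.den_pos)
    have h4 : T2 * Cr ^ (S.filter fun q => q ^ 2 ≤ 49 * N ∨ q ∣ G.den).card *
        ∏ q ∈ S, (q : ℝ) ^ (Vf N q + 5) ≤ Real.exp (2504.2 * (N : ℝ) ^ 2) := by
      rw [h1]
      refine (mul_le_mul_of_nonneg_right (mul_le_mul_of_nonneg_left h3 (by linarith))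
        (Real.exp_pos _).le).trans ?_
      rw [h2, ← Real.exp_add, ← Real.exp_add, Real.exp_le_exp]
      have h5 := Real.log_two_lt_d9
      have h6 : 0 ≤ (N : ℝ) ^ 2 := by positivity
      nlinarith [hS.1, hS.2]
    have h5 := key.trans (mul_le_mul_of_nonneg_left h4 (abs_nonneg _))
    rw [neg_mul, Real.exp_neg, inv_le_iff_one_le_mul₀ (Real.exp_pos _)]
    exact h5
  · have hq1 := hV q hq.out
    by_cases h2 : q = 2
    · subst h2
      rw [if_pos rfl, mul_assoc]
      refine (hc N hN).trans (le_mul_of_one_le_right (by linarith)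
        (one_le_mul_of_one_le_of_one_le ?_ hq1))
      split_ifs
      · exact hC1
      · exact le_rfl
    rw [if_neg h2, one_mul]
    split_ifs with h3
    · exact (odd_crude h2 G hN).trans (le_mul_of_one_le_right (by linarith) hq1)
    · rw [not_or, not_le] at h3
      rw [one_mul]
      exact odd_Vf h2 (pn_le_one_of_not_dvd_den h3.2) hN h3.1
  · have h1 : 49 * N < q := by
      by_contra h
      exact hqS (mem_filter.2 ⟨mem_range.2 (by omega), hq.out⟩)
    have h2 := odd_b2 (p := q) (G := G) (pn_le_one_of_not_dvd_den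
      (Nat.not_dvd_of_pos_of_lt G.den_pos (by omega))) hN (by omega)
    have h3 : (49 * N + 1 - q) + (min (min (49 * N + 1 - q) q) (44 * N) - 6 * N) + (44 * N - q)
        + (30 * N - 1 - q) = 0 := by omega
    rwa [h3, pow_zero] at h2

end Vale.Agent.P030
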