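import Vale.Agent.P030.Defs

namespace Vale.Agent.P030.CL

abbrev T4 := ℤ × ℤ × ℤ × ℤ

def pP (t : ℕ) : ℤ := 2 * (16384 - t) * 16384
def pQ (t : ℕ) : ℤ := 16384 * 16384 - (16384 - t) * (16384 - t)
def pR (t : ℕ) : ℤ := 16384 * 16384 + (16384 - t) * (16384 - t)
def cs (t : ℕ) : ℚ := pP t / pR t
def sn (t : ℕ) : ℚ := pQ t / pR t

def hor (fa fb : T4 → ℤ) (P Q R : ℤ) : List T4 → ℤ × ℤ × ℤ
  | [] => (0, 0, 1)
  | g :: l => match hor fa fb P Q R l with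
    | (X, Y, W) => ((fa g * W + X) * P - (Y - fb g * W) * Q,
        (fa g * W + X) * Q + (Y - fb g * W) * P, W * R)

def horz (A B : ℤ) : List T4 → ℤ × ℤ
  | [] => (0, 1)
  | g :: l => match horz A B l with
    | (X, W) => ((2 * g.2.2.1 * W + X) * A, W * B)

def up (X W : ℤ) : ℚ := ((X * 2 ^ 40 / (W * 10 ^ 8) + 1 : ℤ) : ℚ) / 2 ^ 40

def val1 (L : List T4) (t : ℕ) : ℚ :=
  match hor (fun g => g.1) (fun g => g.2.1) (pP t) (pQ t) (pR t) L with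
  | (X, _, W) => up X W

def val2 (L : List T4) (t : ℕ) : ℚ :=
  match hor (fun g => g.2.2.2) (fun _ => 0) (pP t) (pQ t) (pR t) L, horz (pR t - pP t) (2 * pR t) L with
  | (X, _, W), (X', W') => up X W + up X' W'

def qq (n : ℕ) : ℚ := ((101 ^ n * 2 ^ 30 / (4 * 100 ^ n) + 1 : ℕ) : ℚ) / 2 ^ 30
def lg (n : ℕ) : ℚ := 2 * (6931471808 / 10 ^ 10) - n * (995033085 / 10 ^ 11) - 1
def dd (t u : ℕ) : ℚ := cs t * cs u + sn t * sn u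
def hh (t u : ℕ) : ℚ := ((sn u * cs t - cs u * sn t) / dd t u) ^ 2
def sg (u : ℕ) : ℚ := if u ≤ 16384 then 1 else -1

def e1 (lam b1 b2 b3 : ℚ) (t : ℕ) (V : ℚ) : ℚ :=
  V + lam * sn t + b1 * cs t + b2 * (1 + sn t) + b3 * (1 - cs t)

def k1 (M th lam : ℚ) (t u n1 n2 n3 : ℕ) : ℚ :=
  (6931471808 / 10 ^ 10) / 2 - lam * (29 / 36) + (47 / 36 - th) * lg n1 + (th - 1 / 2) * lg n2
    + (1 / 18 - 1 / 100000) * lg n3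
    + (M + lam + (47 / 36 - th) * qq n1 + (th - 1 / 2) * qq n2 + (1 / 18 - 1 / 100000) * qq n3) / 8
      * hh t u

def ok1 (M th lam m : ℚ) (t : ℕ) (V : ℚ) (u : ℕ) (V' : ℚ) (n1 n2 n3 : ℕ) : Bool :=
  decide (u ≤ 16384 ∨ 16384 ≤ t) &&
  decide (max (e1 lam ((47 / 36 - th) * qq n1 * sg u) ((th - 1 / 2) * qq n2)
      ((1 / 18 - 1 / 100000) * qq n3) t V)
    (e1 lam ((47 / 36 - th) * qq n1 * sg u) ((th - 1 / 2) * qq n2)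
      ((1 / 18 - 1 / 100000) * qq n3) u V') + k1 M th lam t u n1 n2 n3 ≤ m)

def zq (t : ℕ) : ℚ := (1 - cs t) / 2

def e2 (b1 b2 b3 : ℚ) (t : ℕ) (V : ℚ) : ℚ :=
  V + b1 * zq t + b2 * (1 - zq t) + b3 / (1 + zq t ^ 2)

def k2 (M : ℚ) (t u n1 n2 n3 : ℕ) : ℚ :=
  (6931471808 / 10 ^ 10) / 6 + lg n1 / 6 + lg n2 / 9 + 11 / 9 * lg n3
    + (M + qq n1 / 12 + qq n2 / 18 + 22 / 9) / 8 * hh t u

def ok2 (M m : ℚ) (t : ℕ) (V : ℚ) (u : ℕ) (V' : ℚ) (n1 n2 n3 : ℕ) : Bool :=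
  decide (max (e2 (qq n1 / 6) (qq n2 / 9) (11 / 9 * qq n3) t V)
    (e2 (qq n1 / 6) (qq n2 / 9) (11 / 9 * qq n3) u V') + k2 M t u n1 n2 n3 ≤ m)

def chain (e : ℕ) (val : ℕ → ℚ) (ok : ℕ → ℚ → ℕ → ℚ → ℕ → ℕ → ℕ → Bool) : ℕ → ℚ → List ℕ → Bool
  | t, _, [] => t == e
  | t, V, c :: l =>
    decide (c / 10 ^ 12 ≤ 32768) && decide (0 < dd t (c / 10 ^ 12)) &&
      ok t V (c / 10 ^ 12) (val (c / 10 ^ 12)) (c / 10 ^ 8 % 10 ^ 4) (c / 10 ^ 4 % 10 ^ 4) (c % 10 ^ 4)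
      && chain e val ok (c / 10 ^ 12) (val (c / 10 ^ 12)) l

def isum (φ : ℕ → T4 → ℤ) : List T4 → ℕ → ℤ
  | [], _ => 0
  | g :: l, k => φ k g + isum φ l (k + 1)

def cM1 (L : List T4) : ℤ := isum (fun k g => k ^ 2 * (|g.1| + |g.2.1|)) L 1
def cM2 (L : List T4) : ℤ := isum (fun k g => k ^ 2 * |g.2.2.2| + 3 * k * |g.2.2.1|) L 1
def cQ (L : List T4) : ℤ :=
  isum (fun k g => k * (8 * g.2.1 ^ 2 + 8 * (g.1 + 2 * g.2.2.1) ^ 2 + 16 * g.2.2.1 ^ 2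
    + 2 * g.2.2.2 ^ 2)) L 1

end Vale.Agent.P030.CL
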