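import Vale.Agent.P030.CertA
import Vale.Agent.P030.CertB
import Vale.Agent.P030.RB
import Vale.Agent.P030.Arith
import Vale.Agent.P030.NVd

namespace Vale.Agent.P030

theorem cat_irrational : Irrational cat := by
  rintro ⟨G, hG⟩
  obtain ⟨P, hP⟩ := nonvanish G
  obtain ⟨N0, hN0⟩ := Filter.eventually_atTop.1 ((arith G).and (real_bound certA certB hG))
  obtain ⟨p, hp1, hp⟩ := Nat.exists_infinite_primes (max N0 (P + 1))
  obtain ⟨h1, h2⟩ := hN0 p ((le_max_left _ _).trans hp1)
  have h3 := (h1 (hP p hp ((le_max_right _ _).trans hp1))).trans h2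
  rw [Real.exp_le_exp] at h3
  have : (0 : ℝ) < (p : ℝ) ^ 2 := pow_pos (Nat.cast_pos.2 hp.pos) 2
  linarith

end Vale.Agent.P030
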